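import Vale.Agent.Lib.P110.LogBound

namespace Vale.Agent.Results.P110.A_log_gap

theorem result (N : ℕ) (hN : 1 ≤ N) (ε : ℕ → ℤ) (hε : ∀ k < N, ε k = 1 ∨ ε k = -1) :
    (∃ z : ℂ, ‖z‖ = 1 ∧
      (N : ℝ) + Real.log N / 8 ≤ ‖∑ k ∈ Finset.range N, (ε k : ℂ) * z ^ k‖ ^ 2) ∧
    (∃ z : ℂ, ‖z‖ = 1 ∧
      ‖∑ k ∈ Finset.range N, (ε k : ℂ) * z ^ k‖ ^ 2 ≤ (N : ℝ) - Real.log N / 8) :=
  Vale.Agent.Lib.P110.log_bound N hN ε hε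

end Vale.Agent.Results.P110.A_log_gap
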